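import Vale.Agent.P116.Cl.H967.Core

/-!
# Limits of finite mixtures of structures
-/

open Set Filter Topology Metric MeasureTheory Measure
open scoped ENNReal NNReal

namespace Vale.Agent.P116.Cl.H967

open H906

variable {K : Set ℂ}

/-- two disjoint compact sets, one of them saturated, do not meet a common small node -/
lemma node_sep (hK : IsCompact K) (hf : Full K) {C C' : Set ℂ} (hC : IsCompact C)
    (hC' : IsCompact C') (hd : Disjoint C C')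
    (hs : ∀ x ∈ K, (connectedComponentIn K x ∩ C).Nonempty → connectedComponentIn K x ⊆ C) :
    ∃ N, ∀ x ∈ K, ¬ ((C ∩ nd K N x).Nonempty ∧ (C' ∩ nd K N x).Nonempty) := by
  have h1 : ∀ x ∈ K, ∃ n, ∀ N ≥ n, ∀ y ∈ ball x (lr n) ∩ K,
      ¬ ((C ∩ nd K N y).Nonempty ∧ (C' ∩ nd K N y).Nonempty) := by
    intro x hx
    obtain ⟨W, hW, hxW, hWd⟩ : ∃ W, IsOpen W ∧ connectedComponentIn K x ⊆ W ∧
        (Disjoint W C ∨ Disjoint W C') := by
      by_cases h : (connectedComponentIn K x ∩ C).Nonempty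
      · refine ⟨C'ᶜ, hC'.isClosed.isOpen_compl, fun z hz hz' => ?_, Or.inr disjoint_compl_left⟩
        exact disjoint_left.1 hd (hs x hx h hz) hz'
      · refine ⟨Cᶜ, hC.isClosed.isOpen_compl, fun z hz hz' => h ⟨z, hz, hz'⟩,
          Or.inl disjoint_compl_left⟩
    obtain ⟨n, hn⟩ := exists_nd_subset hK hf hx hW hxW
    refine ⟨n, fun N hN y hy hc => ?_⟩
    have hy1 : y ∈ nd K n x := closedBall_subset_nd hx (mem_nd hx n) (ball_subset_closedBall hy.1)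
    have h2 : nd K N y ⊆ W := (nd_anti hN).trans (by rw [nd_eq hy1]; exact hn)
    rcases hWd with h | h
    · obtain ⟨z, hz, hz'⟩ := hc.1
      exact disjoint_left.1 h (h2 hz') hz
    · obtain ⟨z, hz, hz'⟩ := hc.2
      exact disjoint_left.1 h (h2 hz') hz
  choose! n hn using h1
  obtain ⟨T, hTK, hT⟩ := hK.elim_nhds_subcover (fun x => ball x (lr (n x)))
    fun x _ => ball_mem_nhds x (lr_pos _)
  refine ⟨T.sup n, fun y hy => ?_⟩
  obtain ⟨x, hx, hyx⟩ := mem_iUnion₂.1 (hT hy)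
  exact hn x (hTK x hx) _ (Finset.le_sup hx) y ⟨hyx, hy⟩

/-- the family version -/
lemma node_sep_family (hK : IsCompact K) (hf : Full K) {κ : Type*} (J : Finset κ) (C : κ → Set ℂ)
    (hC : ∀ j ∈ J, IsCompact (C j)) (hd : ∀ i ∈ J, ∀ j ∈ J, i ≠ j → Disjoint (C i) (C j))
    (hs : ∀ j ∈ J, ∀ x ∈ K, (connectedComponentIn K x ∩ C j).Nonempty →
      connectedComponentIn K x ⊆ C j) :
    ∃ N, ∀ M ≥ N, ∀ x ∈ K, ∀ i ∈ J, ∀ j ∈ J, (C i ∩ nd K M x).Nonempty → (C j ∩ nd K M x).Nonempty →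
      i = j := by
  classical
  have h1 : ∀ p ∈ (J ×ˢ J).filter (fun p => p.1 ≠ p.2), ∃ N, ∀ x ∈ K,
      ¬ ((C p.1 ∩ nd K N x).Nonempty ∧ (C p.2 ∩ nd K N x).Nonempty) := by
    intro p hp
    rw [Finset.mem_filter, Finset.mem_product] at hp
    exact node_sep hK hf (hC _ hp.1.1) (hC _ hp.1.2) (hd _ hp.1.1 _ hp.1.2 hp.2) (hs _ hp.1.1)
  choose! N hN using h1
  refine ⟨((J ×ˢ J).filter (fun p => p.1 ≠ p.2)).sup N, fun M hM x hx i hi j hj h1 h2 => ?_⟩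
  by_contra hij
  have hm : (i, j) ∈ (J ×ˢ J).filter (fun p => p.1 ≠ p.2) := by
    rw [Finset.mem_filter, Finset.mem_product]; exact ⟨⟨hi, hj⟩, hij⟩
  have hNM : N (i, j) ≤ M := (Finset.le_sup (f := N) hm).trans hM
  exact hN _ hm x hx ⟨h1.mono (inter_subset_inter_right _ (nd_anti hNM)),
    h2.mono (inter_subset_inter_right _ (nd_anti hNM))⟩

/-- a finite mixture of functions of structures: weights `lam`, structures `S`, functions `x`,
cluster intervals `[al P, be P]` of `x` and `[lo P, hi P]` of `u` at the pieces -/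
structure Mixt (K D : Set ℂ) (u : ℂ → ℝ) (ι : Type*) where
  I : Finset ι
  lam : ι → ℝ
  S : ι → Set (Set ℂ)
  x : ι → ℂ → ℝ
  al : ι → Set ℂ → ℝ
  be : ι → Set ℂ → ℝ
  lo : ι → Set ℂ → ℝ
  hi : ι → Set ℂ → ℝ
  lam_nn : ∀ i ∈ I, 0 ≤ lam i
  one : ∀ i ∈ I, One K D u (S i) (x i) (al i) (be i) (lo i) (hi i)

variable {D : Set ℂ} {u : ℂ → ℝ} {ι : Type*}

/-- the mixed function -/
noncomputable def Mixt.g (m : Mixt K D u ι) (z : ℂ) : ℝ := ∑ i ∈ m.I, m.lam i * m.x i z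

/-- the mixed counting function -/
noncomputable def Mixt.e (m : Mixt K D u ι) (s : ℝ) : ℝ≥0∞ :=
  ∑ i ∈ m.I.attach, ENNReal.ofReal (m.lam i) *
    ee D u (m.one i i.2).fin (m.x i) (m.al i) (m.be i) (m.lo i) (m.hi i) s

lemma Mixt.measurable_e (m : Mixt K D u ι) : Measurable m.e :=
  Finset.measurable_sum _ fun _ _ => (measurable_ee _ _ _ _ _ _ _ _).const_mul _

lemma Mixt.lintegral_e (m : Mixt K D u ι) : ∫⁻ s, m.e s = ∑ i ∈ m.I.attach, ENNReal.ofReal (m.lam i) *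
    ∫⁻ s, ee D u (m.one i i.2).fin (m.x i) (m.al i) (m.be i) (m.lo i) (m.hi i) s := by
  unfold Mixt.e
  rw [lintegral_finsetSum _ fun _ _ => (measurable_ee _ _ _ _ _ _ _ _).const_mul _]
  refine Finset.sum_congr rfl fun i _ => ?_
  rw [lintegral_const_mul _ (measurable_ee _ _ _ _ _ _ _ _)]

theorem Mixt.family (m : Mixt K D u ι) {s : ℝ} {κ : Type*} (J : Finset κ)
    (C : κ → Set ℂ) (hCc : ∀ j ∈ J, IsCompact (C j)) (hCp : ∀ j ∈ J, IsPreconnected (C j))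
    (hCD : ∀ j ∈ J, C j ⊆ D) (hd : ∀ i ∈ J, ∀ j ∈ J, i ≠ j → Disjoint (C i) (C j))
    (hu : ∀ j ∈ J, ∀ z ∈ C j, z ∉ K → u z = s) (p q : κ → ℂ)
    (hp : ∀ i ∈ m.I, ∀ j ∈ J, p j ∈ C j ∧ p j ∉ ⋃₀ m.S i)
    (hq : ∀ i ∈ m.I, ∀ j ∈ J, q j ∈ C j ∧ q j ∉ ⋃₀ m.S i)
    (hone : ∀ i ∈ m.I, ∀ P ∈ m.S i, ∀ j ∈ J, ∀ k ∈ J, (C j ∩ P).Nonempty → (C k ∩ P).Nonempty → j = k) :
    ∑ j ∈ J, ENNReal.ofReal |m.g (p j) - m.g (q j)| ≤ m.e s := by
  have h1 : ∀ j ∈ J, ENNReal.ofReal |m.g (p j) - m.g (q j)| ≤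
      ∑ i ∈ m.I.attach, ENNReal.ofReal (m.lam i) * ENNReal.ofReal |m.x i (p j) - m.x i (q j)| := by
    intro j _
    have e1 : m.g (p j) - m.g (q j) = ∑ i ∈ m.I.attach, m.lam i * (m.x i (p j) - m.x i (q j)) := by
      rw [Finset.sum_attach m.I (fun i => m.lam i * (m.x i (p j) - m.x i (q j)))]
      simp only [Mixt.g, mul_sub, Finset.sum_sub_distrib]
    have e2 : |m.g (p j) - m.g (q j)| ≤ ∑ i ∈ m.I.attach, m.lam i * |m.x i (p j) - m.x i (q j)| := by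
      rw [e1]
      refine (Finset.abs_sum_le_sum_abs _ _).trans (Finset.sum_le_sum fun i _ => ?_)
      rw [abs_mul, abs_of_nonneg (m.lam_nn i i.2)]
    refine (ENNReal.ofReal_le_ofReal e2).trans ?_
    rw [ENNReal.ofReal_sum_of_nonneg fun (i : {i // i ∈ m.I}) _ =>
      mul_nonneg (m.lam_nn i i.2) (abs_nonneg _)]
    refine Finset.sum_le_sum fun i _ => ?_
    rw [ENNReal.ofReal_mul (m.lam_nn i i.2)]
  refine (Finset.sum_le_sum h1).trans ?_
  rw [Finset.sum_comm]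
  refine Finset.sum_le_sum fun i _ => ?_
  rw [← Finset.mul_sum]
  gcongr
  exact (m.one i i.2).family J C hCc hCp hCD hd hu p q (hp i i.2) (hq i i.2) (hone i i.2)

/-- **Core of [45].** A function which is a limit of finite mixtures of functions of finer and finer
structures: the sum of its oscillations along disjoint continua in the level set `u = s` is at most
`liminf` of the counting functions. -/
theorem core45 (hK : IsCompact K) (hf : Full K) {g : ℂ → ℝ} (m : ℕ → Mixt K D u ι)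
    (hfine : ∀ N, ∀ᶠ n in atTop, ∀ i ∈ (m n).I, ∀ P ∈ (m n).S i, ∃ x ∈ K, P ⊆ nd K N x)
    (hg : ∀ z ∈ D, z ∉ K → Tendsto (fun n => (m n).g z) atTop (𝓝 (g z))) {s : ℝ} {κ : Type*}
    (J : Finset κ) (C : κ → Set ℂ) (hCc : ∀ j ∈ J, IsCompact (C j))
    (hCp : ∀ j ∈ J, IsPreconnected (C j)) (hCD : ∀ j ∈ J, C j ⊆ D)
    (hd : ∀ i ∈ J, ∀ j ∈ J, i ≠ j → Disjoint (C i) (C j))
    (hs : ∀ j ∈ J, ∀ x ∈ K, (connectedComponentIn K x ∩ C j).Nonempty →
      connectedComponentIn K x ⊆ C j)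
    (hu : ∀ j ∈ J, ∀ z ∈ C j, z ∉ K → u z = s) (p q : κ → ℂ)
    (hp : ∀ j ∈ J, p j ∈ C j ∧ p j ∉ K) (hq : ∀ j ∈ J, q j ∈ C j ∧ q j ∉ K) :
    ∑ j ∈ J, ENNReal.ofReal |g (p j) - g (q j)| ≤ liminf (fun n => (m n).e s) atTop := by
  classical
  obtain ⟨N₀, hN₀⟩ := node_sep_family hK hf J C hCc hd hs
  obtain ⟨N₁, hN₁⟩ : ∃ N, ∀ j ∈ J, p j ∉ lev K N ∧ q j ∉ lev K N := by
    have h1 : ∀ j ∈ J, ∃ N, ∀ M ≥ N, p j ∉ lev K M ∧ q j ∉ lev K M := by
      intro j hj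
      obtain ⟨n, hn⟩ := exists_notMem_lev hK hf (hp j hj).2
      obtain ⟨n', hn'⟩ := exists_notMem_lev hK hf (hq j hj).2
      exact ⟨max n n', fun M hM => ⟨fun h => hn (lev_anti ((le_max_left _ _).trans hM) h),
        fun h => hn' (lev_anti ((le_max_right _ _).trans hM) h)⟩⟩
    choose! N hN using h1
    exact ⟨J.sup N, fun j hj => hN j hj _ (Finset.le_sup hj)⟩
  have hev : ∀ᶠ n in atTop, ∑ j ∈ J, ENNReal.ofReal |(m n).g (p j) - (m n).g (q j)| ≤ (m n).e s := by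
    filter_upwards [hfine (max N₀ N₁)] with n hn
    have hout : ∀ i ∈ (m n).I, ∀ z, z ∉ lev K N₁ → z ∉ ⋃₀ (m n).S i := by
      rintro i hi z hz ⟨P, hP, hzP⟩
      obtain ⟨x, hx, hPx⟩ := hn i hi P hP
      exact hz (lev_anti (le_max_right _ _) (nd_subset _ _ (hPx hzP)))
    refine (m n).family J C hCc hCp hCD hd hu p q
      (fun i hi j hj => ⟨(hp j hj).1, hout i hi _ (hN₁ j hj).1⟩)
      (fun i hi j hj => ⟨(hq j hj).1, hout i hi _ (hN₁ j hj).2⟩) ?_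
    intro i hi P hP j hj k hk h1 h2
    obtain ⟨x, hx, hPx⟩ := hn i hi P hP
    exact hN₀ _ (le_max_left _ _) x hx j hj k hk (h1.mono (inter_subset_inter_right _ hPx))
      (h2.mono (inter_subset_inter_right _ hPx))
  have hlim : Tendsto (fun n => ∑ j ∈ J, ENNReal.ofReal |(m n).g (p j) - (m n).g (q j)|) atTop
      (𝓝 (∑ j ∈ J, ENNReal.ofReal |g (p j) - g (q j)|)) := by
    refine tendsto_finsetSum _ fun j hj => ?_
    refine (ENNReal.continuous_ofReal.tendsto _).comp ?_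
    exact ((hg _ (hCD j hj (hp j hj).1) (hp j hj).2).sub
      (hg _ (hCD j hj (hq j hj).1) (hq j hj).2)).abs
  rw [← hlim.liminf_eq]
  exact liminf_le_liminf hev

lemma measurable_liminf_e (m : ℕ → Mixt K D u ι) :
    Measurable fun s => liminf (fun n => (m n).e s) atTop :=
  Measurable.liminf fun n => (m n).measurable_e

lemma lintegral_liminf_e (m : ℕ → Mixt K D u ι) :
    ∫⁻ s, liminf (fun n => (m n).e s) atTop ≤ liminf (fun n => ∫⁻ s, (m n).e s) atTop :=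
  lintegral_liminf_le fun n => (m n).measurable_e

end Vale.Agent.P116.Cl.H967
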