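import Mathlib

/-!
# Level sets without coarea: the planar measure of the image of `(u, x)`

For two real functions `u`, `x` on the plane put `Φ = u + i x`. The integral over `s` of the
measure of `x {u = s}` is the area of the image of `Φ`, at most `∫ ‖u'‖ ‖x'‖`.
-/

open Set Filter Topology Metric MeasureTheory Measure
open scoped ENNReal NNReal

namespace Vale.Agent.P116.Cl.H967

/-- the pair of two real functions -/
def Ph (u x : ℂ → ℝ) (z : ℂ) : ℂ := ⟨u z, x z⟩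

@[simp] lemma Ph_re (u x : ℂ → ℝ) (z : ℂ) : (Ph u x z).re = u z := rfl
@[simp] lemma Ph_im (u x : ℂ → ℝ) (z : ℂ) : (Ph u x z).im = x z := rfl

lemma Ph_eq (u x : ℂ → ℝ) (z : ℂ) : Ph u x z = (u z : ℂ) + (x z : ℂ) * Complex.I := by
  apply Complex.ext <;> simp [Ph]

/-- `w` dominates the area distortion of `(u, x)` on `A` -/
def Dom (u x : ℂ → ℝ) (w : ℂ → ℝ≥0∞) (A : Set ℂ) : Prop :=
  ∀ B ⊆ A, MeasurableSet B → volume (Ph u x '' B) ≤ ∫⁻ z in B, w z

lemma Dom.mono {u x : ℂ → ℝ} {w : ℂ → ℝ≥0∞} {A B : Set ℂ} (h : Dom u x w A) (hB : B ⊆ A) :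
    Dom u x w B := fun C hC hm => h C (hC.trans hB) hm

lemma Dom.iUnion {ι : Type*} [Countable ι] {u x : ℂ → ℝ} {w : ℂ → ℝ≥0∞} {A : ι → Set ℂ}
    (h : ∀ i, Dom u x w (A i)) (hm : ∀ i, MeasurableSet (A i)) : Dom u x w (⋃ i, A i) := by
  intro B hB hBm
  classical
  obtain ⟨f, hf⟩ : ∃ f : ι → ℕ, Function.Injective f := Countable.exists_injective_nat ι
  let A' : ℕ → Set ℂ := fun n => ⋃ i, ⋃ (_ : f i = n), A i
  have hA'm : ∀ n, MeasurableSet (A' n) := fun n =>
    MeasurableSet.iUnion fun i => MeasurableSet.iUnion fun _ => hm i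
  have hD : ∀ n, Dom u x w (A' n) := by
    intro n C hC hCm
    by_cases hn : ∃ i, f i = n
    · obtain ⟨i, hi⟩ := hn
      refine h i C (fun z hz => ?_) hCm
      obtain ⟨j, hj, hz⟩ := mem_iUnion₂.1 (hC hz)
      have : j = i := hf (hj.trans hi.symm)
      exact this ▸ hz
    · have : C = ∅ := by
        refine subset_eq_empty (fun z hz => ?_) rfl
        obtain ⟨j, hj, _⟩ := mem_iUnion₂.1 (hC hz)
        exact hn ⟨j, hj⟩
      simp [this]
  have hB' : B = ⋃ n, B ∩ disjointed A' n := by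
    rw [← inter_iUnion, iUnion_disjointed]
    refine (inter_eq_left.2 fun z hz => ?_).symm
    obtain ⟨i, hi⟩ := mem_iUnion.1 (hB hz)
    exact mem_iUnion.2 ⟨f i, mem_iUnion₂.2 ⟨i, rfl, hi⟩⟩
  have hdm : ∀ n, MeasurableSet (B ∩ disjointed A' n) := fun n =>
    hBm.inter (MeasurableSet.disjointed hA'm n)
  have hdd : Pairwise (Function.onFun Disjoint fun n => B ∩ disjointed A' n) := fun i j hij =>
    (disjoint_disjointed A' hij).mono inter_subset_right inter_subset_right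
  calc volume (Ph u x '' B) = volume (⋃ n, Ph u x '' (B ∩ disjointed A' n)) := by
        conv_lhs => rw [hB', image_iUnion]
    _ ≤ ∑' n, volume (Ph u x '' (B ∩ disjointed A' n)) := measure_iUnion_le _
    _ ≤ ∑' n, ∫⁻ z in B ∩ disjointed A' n, w z :=
        ENNReal.tsum_le_tsum fun n =>
          hD n _ (inter_subset_right.trans (disjointed_subset A' n)) (hdm n)
    _ = ∫⁻ z in ⋃ n, B ∩ disjointed A' n, w z := (lintegral_iUnion hdm hdd _).symm
    _ = ∫⁻ z in B, w z := by rw [← hB']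

/-- a vertical line is a null set -/
lemma vol_vline (c : ℝ) : volume {z : ℂ | z.re = c} = 0 := by
  have h := Complex.volume_preserving_equiv_real_prod
  have h2 : {z : ℂ | z.re = c} = Complex.measurableEquivRealProd ⁻¹' ({c} ×ˢ univ) := by
    ext z
    simp [Complex.measurableEquivRealProd]
  rw [h2, h.measure_preimage (by measurability), Measure.volume_eq_prod, Measure.prod_prod]
  simp

lemma Dom.of_const {u x : ℂ → ℝ} {w : ℂ → ℝ≥0∞} {A : Set ℂ} {c : ℝ} (h : ∀ z ∈ A, u z = c) :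
    Dom u x w A := by
  intro B hB _
  have : Ph u x '' B ⊆ {z : ℂ | z.re = c} := by
    rintro _ ⟨z, hz, rfl⟩
    exact h z (hB hz)
  exact (measure_mono this).trans ((vol_vline c).le.trans (by simp))

/-! ### the determinant -/

lemma norm_sq_clm (a : ℂ →L[ℝ] ℝ) : a 1 ^ 2 + a Complex.I ^ 2 ≤ ‖a‖ ^ 2 := by
  have h1 : a ((a 1 : ℂ) + (a Complex.I : ℂ) * Complex.I) = a 1 ^ 2 + a Complex.I ^ 2 := by
    have e : ((a 1 : ℂ) + (a Complex.I : ℂ) * Complex.I) = (a 1) • (1:ℂ) + (a Complex.I) • Complex.I := by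
      simp
    rw [e, map_add, map_smul, map_smul]
    simp [sq]
  have h2 := a.le_opNorm ((a 1 : ℂ) + (a Complex.I : ℂ) * Complex.I)
  rw [h1, Real.norm_eq_abs, abs_of_nonneg (by positivity)] at h2
  have h3 : ‖((a 1 : ℂ) + (a Complex.I : ℂ) * Complex.I)‖ ^ 2 = a 1 ^ 2 + a Complex.I ^ 2 := by
    rw [← Complex.normSq_eq_norm_sq, Complex.normSq_add_mul_I]
  set n := ‖((a 1 : ℂ) + (a Complex.I : ℂ) * Complex.I)‖
  have hn : 0 ≤ n := norm_nonneg _
  rw [← h3] at h2 ⊢
  rcases hn.eq_or_lt with h0 | h0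
  · rw [← h0]; nlinarith [sq_nonneg ‖a‖]
  · have : n ≤ ‖a‖ := by
      have : n * n ≤ ‖a‖ * n := by nlinarith
      exact le_of_mul_le_mul_right this h0
    gcongr

lemma abs_det_le (a b : ℂ →L[ℝ] ℝ) (A : ℂ →L[ℝ] ℂ)
    (hA : ∀ z, A z = ⟨a z, b z⟩) : |A.det| ≤ ‖a‖ * ‖b‖ := by
  have h1 : A.det = a 1 * b Complex.I - a Complex.I * b 1 := by
    rw [ContinuousLinearMap.det, ← LinearMap.det_toMatrix Complex.basisOneI, Matrix.det_fin_two]
    simp [LinearMap.toMatrix_apply, hA]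
    try ring
  have h2 := norm_sq_clm a
  have h3 := norm_sq_clm b
  rw [h1]
  refine abs_le_of_sq_le_sq' ?_ (by positivity) |> abs_le.2
  have h4 : (a 1 * b Complex.I - a Complex.I * b 1) ^ 2 ≤
      (a 1 ^ 2 + a Complex.I ^ 2) * (b 1 ^ 2 + b Complex.I ^ 2) := by
    nlinarith [sq_nonneg (a 1 * b 1 + a Complex.I * b Complex.I)]
  calc (a 1 * b Complex.I - a Complex.I * b 1) ^ 2
      ≤ (a 1 ^ 2 + a Complex.I ^ 2) * (b 1 ^ 2 + b Complex.I ^ 2) := h4
    _ ≤ ‖a‖ ^ 2 * ‖b‖ ^ 2 := by gcongr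
    _ = (‖a‖ * ‖b‖) ^ 2 := by ring

/-- the area of the image is at most the integral of the product of the gradients -/
lemma Dom.of_deriv {u x : ℂ → ℝ} {u' x' : ℂ → ℂ →L[ℝ] ℝ} {A : Set ℂ}
    (hu : ∀ z ∈ A, HasFDerivWithinAt u (u' z) A z) (hx : ∀ z ∈ A, HasFDerivWithinAt x (x' z) A z) :
    Dom u x (fun z => ENNReal.ofReal (‖u' z‖ * ‖x' z‖)) A := by
  intro B hB hBm
  let A' : ℂ → ℂ →L[ℝ] ℂ := fun z =>
    (Complex.ofRealCLM.comp (u' z)) + Complex.I • (Complex.ofRealCLM.comp (x' z))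
  have h1 : ∀ z ∈ B, HasFDerivWithinAt (Ph u x) (A' z) B z := by
    intro z hz
    have e : Ph u x = fun z => Complex.ofRealCLM (u z) + Complex.I • Complex.ofRealCLM (x z) := by
      funext z
      simp [Ph_eq, mul_comm]
    rw [e]
    exact (Complex.ofRealCLM.hasFDerivAt.comp_hasFDerivWithinAt z ((hu z (hB hz)).mono hB)).add
      ((Complex.ofRealCLM.hasFDerivAt.comp_hasFDerivWithinAt z
        ((hx z (hB hz)).mono hB)).const_smul Complex.I)
  refine (addHaar_image_le_lintegral_abs_det_fderiv volume hBm h1).trans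
    (lintegral_mono fun z => ENNReal.ofReal_le_ofReal (abs_det_le _ _ _ fun w => ?_))
  apply Complex.ext <;> simp [A']

/-! ### slices -/

/-- the vertical slice -/
def sl (M : Set ℂ) (s : ℝ) : Set ℝ := {y | (⟨s, y⟩ : ℂ) ∈ M}

lemma sl_eq (M : Set ℂ) (s : ℝ) :
    sl M s = Prod.mk s ⁻¹' (Complex.measurableEquivRealProd.symm ⁻¹' M) := rfl

lemma measurable_sl {M : Set ℂ} (hM : MeasurableSet M) : Measurable fun s => volume (sl M s) := by
  simp only [sl_eq]
  exact measurable_measure_prodMk_left (Complex.measurableEquivRealProd.symm.measurable hM)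

lemma vol_slices {M : Set ℂ} (hM : MeasurableSet M) : volume M = ∫⁻ s : ℝ, volume (sl M s) := by
  have h := Complex.volume_preserving_equiv_real_prod
  have h1 : volume (Complex.measurableEquivRealProd.symm ⁻¹' M) = volume M :=
    (h.symm Complex.measurableEquivRealProd).measure_preimage_equiv M
  rw [← h1, Measure.volume_eq_prod,
    Measure.prod_apply (Complex.measurableEquivRealProd.symm.measurable hM)]
  rfl

/-- the index of the dyadic cell -/
noncomputable def ci (n : ℕ) (z : ℂ) : ℤ × ℤ := (⌊2 ^ n * z.re⌋, ⌊2 ^ n * z.im⌋)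

lemma measurable_ci (n : ℕ) : Measurable (ci n) := by
  unfold ci
  exact (Int.measurable_floor.comp (measurable_const.mul Complex.measurable_re)).prodMk
    (Int.measurable_floor.comp (measurable_const.mul Complex.measurable_im))

lemma dist_of_ci {n : ℕ} {z w : ℂ} (h : ci n z = ci n w) : dist z w ≤ 2 / 2 ^ n := by
  have h1 := congrArg Prod.fst h
  have h2 := congrArg Prod.snd h
  simp only [ci] at h1 h2
  have p : (0:ℝ) < 2 ^ n := by positivity
  have e1 : |2 ^ n * z.re - 2 ^ n * w.re| < 1 := Int.abs_sub_lt_one_of_floor_eq_floor h1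
  have e2 : |2 ^ n * z.im - 2 ^ n * w.im| < 1 := Int.abs_sub_lt_one_of_floor_eq_floor h2
  have f1 : |z.re - w.re| < 1 / 2 ^ n := by
    rw [lt_div_iff₀ p]
    have : |z.re - w.re| * 2 ^ n = |(2 ^ n * z.re - 2 ^ n * w.re)| := by
      rw [← mul_sub, abs_mul, abs_of_pos p]; ring
    rw [this]; exact e1
  have f2 : |z.im - w.im| < 1 / 2 ^ n := by
    rw [lt_div_iff₀ p]
    have : |z.im - w.im| * 2 ^ n = |(2 ^ n * z.im - 2 ^ n * w.im)| := by
      rw [← mul_sub, abs_mul, abs_of_pos p]; ring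
    rw [this]; exact e2
  rw [Complex.dist_eq]
  calc ‖z - w‖ ≤ |(z - w).re| + |(z - w).im| := Complex.norm_le_abs_re_add_abs_im _
    _ ≤ 1 / 2 ^ n + 1 / 2 ^ n := by
        rw [Complex.sub_re, Complex.sub_im]; gcongr
    _ = 2 / 2 ^ n := by ring

/-- the measurable hull of the image of a cell -/
noncomputable def hl (u x : ℂ → ℝ) (A : Set ℂ) (n : ℕ) (k : ℤ × ℤ) : Set ℂ :=
  toMeasurable volume (Ph u x '' (A ∩ ci n ⁻¹' {k}))

/-- the counting function at scale `2 ^ (-n)` -/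
noncomputable def gn (u x : ℂ → ℝ) (A : Set ℂ) (n : ℕ) (s : ℝ) : ℝ≥0∞ :=
  ∑' k, volume (sl (hl u x A n k) s)

lemma measurable_gn (u x : ℂ → ℝ) (A : Set ℂ) (n : ℕ) : Measurable (gn u x A n) :=
  Measurable.tsum fun _ => measurable_sl (measurableSet_toMeasurable _ _)

lemma lintegral_gn {u x : ℂ → ℝ} {w : ℂ → ℝ≥0∞} {A : Set ℂ} (hA : MeasurableSet A)
    (h : Dom u x w A) (n : ℕ) : ∫⁻ s, gn u x A n s ≤ ∫⁻ z in A, w z := by
  unfold gn
  have h0 : ∀ k, AEMeasurable (fun s => volume (sl (hl u x A n k) s)) volume := fun k =>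
    (measurable_sl (measurableSet_toMeasurable _ _)).aemeasurable
  rw [lintegral_tsum h0]
  have h1 : ∀ k, MeasurableSet (A ∩ ci n ⁻¹' {k}) := fun k =>
    hA.inter (measurable_ci n (measurableSet_singleton k))
  calc ∑' k, ∫⁻ s, volume (sl (hl u x A n k) s)
      = ∑' k, volume (Ph u x '' (A ∩ ci n ⁻¹' {k})) := by
        congr 1
        funext k
        rw [hl, ← vol_slices (measurableSet_toMeasurable _ _), measure_toMeasurable]
    _ ≤ ∑' k, ∫⁻ z in A ∩ ci n ⁻¹' {k}, w z :=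
        ENNReal.tsum_le_tsum fun k => h _ inter_subset_left (h1 k)
    _ = ∫⁻ z in ⋃ k, A ∩ ci n ⁻¹' {k}, w z := by
        refine (lintegral_iUnion h1 (fun i j hij => ?_) _).symm
        refine disjoint_left.2 fun z hz hz' => hij ?_
        exact (hz.2 : ci n z = i).symm.trans hz'.2
    _ = ∫⁻ z in A, w z := by
        congr 2
        ext z
        simp

/-- the counting function -/
noncomputable def gg (u x : ℂ → ℝ) (A : Set ℂ) (s : ℝ) : ℝ≥0∞ :=
  liminf (fun n => gn u x A n s) atTop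

lemma measurable_gg (u x : ℂ → ℝ) (A : Set ℂ) : Measurable (gg u x A) :=
  Measurable.liminf fun n => measurable_gn u x A n

theorem lintegral_gg {u x : ℂ → ℝ} {w : ℂ → ℝ≥0∞} {A : Set ℂ} (hA : MeasurableSet A)
    (h : Dom u x w A) : ∫⁻ s, gg u x A s ≤ ∫⁻ z in A, w z := by
  refine (lintegral_liminf_le fun n => measurable_gn u x A n).trans ?_
  refine liminf_le_of_le (by isBoundedDefault) ?_
  intro b hb
  obtain ⟨n, hn⟩ := hb.exists
  exact hn.trans (lintegral_gn hA h n)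

/-- the total measure of the images of disjoint compact parts of a level set -/
theorem sum_le_gg {u x : ℂ → ℝ} {A : Set ℂ} {s : ℝ} {ι : Type*} (J : Finset ι) (K : ι → Set ℂ)
    (hK : ∀ i ∈ J, IsCompact (K i)) (hd : ∀ i ∈ J, ∀ j ∈ J, i ≠ j → Disjoint (K i) (K j))
    (hs : ∀ i ∈ J, ∀ z ∈ K i, z ∈ A ∧ u z = s) : ∑ i ∈ J, volume (x '' K i) ≤ gg u x A s := by
  classical
  obtain ⟨δ, hδ, hsep⟩ : ∃ δ > 0, ∀ i ∈ J, ∀ j ∈ J, i ≠ j → ∀ z ∈ K i, ∀ w ∈ K j, δ ≤ dist z w := by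
    have h1 : ∀ p ∈ (J ×ˢ J).filter (fun p => p.1 ≠ p.2), ∃ δ > 0, ∀ z ∈ K p.1, ∀ w ∈ K p.2,
        δ ≤ dist z w := by
      intro p hp
      rw [Finset.mem_filter, Finset.mem_product] at hp
      obtain ⟨δ, hδ, h⟩ := (hd p.1 hp.1.1 p.2 hp.1.2 hp.2).exists_thickenings (hK _ hp.1.1)
        (hK _ hp.1.2).isClosed
      refine ⟨δ, hδ, fun z hz w hw => ?_⟩
      by_contra hlt
      push Not at hlt
      exact disjoint_left.1 h (mem_thickening_iff.2 ⟨z, hz, by rw [dist_comm]; exact hlt⟩)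
        (self_subset_thickening hδ _ hw)
    choose! d hd0 hd1 using h1
    by_cases hne : ((J ×ˢ J).filter (fun p => p.1 ≠ p.2)).Nonempty
    · obtain ⟨p, hp, hmin⟩ := Finset.exists_min_image _ d hne
      refine ⟨d p, hd0 p hp, fun i hi j hj hij z hz w hw => ?_⟩
      have hm : (i, j) ∈ (J ×ˢ J).filter (fun p => p.1 ≠ p.2) := by
        rw [Finset.mem_filter, Finset.mem_product]; exact ⟨⟨hi, hj⟩, hij⟩
      exact (hmin _ hm).trans (hd1 _ hm z hz w hw)
    · refine ⟨1, one_pos, fun i hi j hj hij => ?_⟩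
      exact (hne ⟨(i, j), by rw [Finset.mem_filter, Finset.mem_product]; exact ⟨⟨hi, hj⟩, hij⟩⟩).elim
  have hev : ∀ᶠ n : ℕ in atTop, (2:ℝ) / 2 ^ n < δ := by
    have : Tendsto (fun n : ℕ => (2:ℝ) * (1 / 2) ^ n) atTop (𝓝 (2 * 0)) :=
      (tendsto_pow_atTop_nhds_zero_of_lt_one (by norm_num) (by norm_num)).const_mul 2
    rw [mul_zero] at this
    filter_upwards [this.eventually (gt_mem_nhds hδ)] with n hn
    calc (2:ℝ) / 2 ^ n = 2 * (1 / 2) ^ n := by rw [one_div, inv_pow]; rfl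
      _ < δ := hn
  refine le_liminf_of_le (by isBoundedDefault) ?_
  filter_upwards [hev] with n hn
  have hcell : ∀ i ∈ J, volume (x '' K i) ≤ ∑' k, volume (x '' (K i ∩ ci n ⁻¹' {k})) := by
    intro i _
    refine (measure_mono ?_).trans (measure_iUnion_le _)
    rw [← image_iUnion]
    refine image_mono fun z hz => mem_iUnion.2 ⟨ci n z, hz, rfl⟩
  calc ∑ i ∈ J, volume (x '' K i) ≤ ∑ i ∈ J, ∑' k, volume (x '' (K i ∩ ci n ⁻¹' {k})) :=
        Finset.sum_le_sum hcell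
    _ = ∑' k, ∑ i ∈ J, volume (x '' (K i ∩ ci n ⁻¹' {k})) :=
        (Summable.tsum_finsetSum fun i _ => ENNReal.summable).symm
    _ ≤ gn u x A n s := ENNReal.tsum_le_tsum fun k => ?_
  by_cases hex : ∃ i ∈ J, (K i ∩ ci n ⁻¹' {k}).Nonempty
  · obtain ⟨i, hi, z, hz, hzk⟩ := hex
    rw [Finset.sum_eq_single_of_mem i hi]
    · refine measure_mono ?_
      rintro _ ⟨w, ⟨hw, hwk⟩, rfl⟩
      refine subset_toMeasurable _ _ ⟨w, ⟨(hs i hi w hw).1, hwk⟩, ?_⟩
      rw [← (hs i hi w hw).2]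
      rfl
    · intro j hj hji
      have : K j ∩ ci n ⁻¹' {k} = ∅ := by
        refine eq_empty_of_forall_notMem fun w hw => ?_
        have h1 := hsep j hj i hi hji w hw.1 z hz
        have h2 : dist w z ≤ 2 / 2 ^ n := dist_of_ci ((hw.2 : ci n w = k).trans (hzk : ci n z = k).symm)
        linarith
      rw [this, image_empty, measure_empty]
  · push Not at hex
    refine (Finset.sum_eq_zero fun i hi => ?_).trans_le (by simp)
    rw [hex i hi, image_empty, measure_empty]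

end Vale.Agent.P116.Cl.H967
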