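import Vale.Agent.P116.Cl.H967.Ug
import Vale.Agent.P116.H906.Nodes
import Vale.Agent.P116.H906.Sel

/-!
# Compatibility, analytic part

Finite mixtures of functions of structures, several disjoint continua in a level set.
-/

open Set Filter Topology Metric MeasureTheory Measure
open scoped ENNReal NNReal

namespace Vale.Agent.P116.Cl.H967

open H906

/-! ### the measure of the images of separated parts of a level set -/

theorem sum_le_gg' {u x : ℂ → ℝ} {A : Set ℂ} {s : ℝ} {ι : Type*} (J : Finset ι) (C K : ι → Set ℂ)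
    (hC : ∀ i ∈ J, IsCompact (C i)) (hd : ∀ i ∈ J, ∀ j ∈ J, i ≠ j → Disjoint (C i) (C j))
    (hKC : ∀ i ∈ J, K i ⊆ C i)
    (hs : ∀ i ∈ J, ∀ z ∈ K i, z ∈ A ∧ u z = s) : ∑ i ∈ J, volume (x '' K i) ≤ gg u x A s := by
  classical
  obtain ⟨δ, hδ, hsep⟩ : ∃ δ > 0, ∀ i ∈ J, ∀ j ∈ J, i ≠ j → ∀ z ∈ K i, ∀ w ∈ K j, δ ≤ dist z w := by
    have h1 : ∀ p ∈ (J ×ˢ J).filter (fun p => p.1 ≠ p.2), ∃ δ > 0, ∀ z ∈ C p.1, ∀ w ∈ C p.2,
        δ ≤ dist z w := by
      intro p hp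
      rw [Finset.mem_filter, Finset.mem_product] at hp
      obtain ⟨δ, hδ, h⟩ := (hd p.1 hp.1.1 p.2 hp.1.2 hp.2).exists_thickenings (hC _ hp.1.1)
        (hC _ hp.1.2).isClosed
      refine ⟨δ, hδ, fun z hz w hw => ?_⟩
      by_contra hlt
      push Not at hlt
      exact disjoint_left.1 h (mem_thickening_iff.2 ⟨z, hz, by rw [dist_comm]; exact hlt⟩)
        (self_subset_thickening hδ _ hw)
    choose! d hd0 hd1 using h1
    by_cases hne : ((J ×ˢ J).filter (fun p => p.1 ≠ p.2)).Nonempty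
    · obtain ⟨p, hp, hmin⟩ := Finset.exists_min_image _ d hne
      refine ⟨d p, hd0 p hp, fun i hi j hj hij z hz w hw => ?_⟩
      have hm : (i, j) ∈ (J ×ˢ J).filter (fun p => p.1 ≠ p.2) := by
        rw [Finset.mem_filter, Finset.mem_product]; exact ⟨⟨hi, hj⟩, hij⟩
      exact (hmin _ hm).trans (hd1 _ hm z (hKC i hi hz) w (hKC j hj hw))
    · refine ⟨1, one_pos, fun i hi j hj hij => ?_⟩
      exact (hne ⟨(i, j), by rw [Finset.mem_filter, Finset.mem_product]; exact ⟨⟨hi, hj⟩, hij⟩⟩).elim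
  have hev : ∀ᶠ n : ℕ in atTop, (2:ℝ) / 2 ^ n < δ := by
    have : Tendsto (fun n : ℕ => (2:ℝ) * (1 / 2) ^ n) atTop (𝓝 (2 * 0)) :=
      (tendsto_pow_atTop_nhds_zero_of_lt_one (by norm_num) (by norm_num)).const_mul 2
    rw [mul_zero] at this
    filter_upwards [this.eventually (gt_mem_nhds hδ)] with n hn
    calc (2:ℝ) / 2 ^ n = 2 * (1 / 2) ^ n := by rw [one_div, inv_pow]; rfl
      _ < δ := hn
  refine le_liminf_of_le (by isBoundedDefault) ?_
  filter_upwards [hev] with n hn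
  have hcell : ∀ i ∈ J, volume (x '' K i) ≤ ∑' k, volume (x '' (K i ∩ ci n ⁻¹' {k})) := by
    intro i _
    refine (measure_mono ?_).trans (measure_iUnion_le _)
    rw [← image_iUnion]
    refine image_mono fun z hz => mem_iUnion.2 ⟨ci n z, hz, rfl⟩
  calc ∑ i ∈ J, volume (x '' K i) ≤ ∑ i ∈ J, ∑' k, volume (x '' (K i ∩ ci n ⁻¹' {k})) :=
        Finset.sum_le_sum hcell
    _ = ∑' k, ∑ i ∈ J, volume (x '' (K i ∩ ci n ⁻¹' {k})) :=
        (Summable.tsum_finsetSum fun i _ => ENNReal.summable).symm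
    _ ≤ gn u x A n s := ENNReal.tsum_le_tsum fun k => ?_
  by_cases hex : ∃ i ∈ J, (K i ∩ ci n ⁻¹' {k}).Nonempty
  · obtain ⟨i, hi, z, hz, hzk⟩ := hex
    rw [Finset.sum_eq_single_of_mem i hi]
    · refine measure_mono ?_
      rintro _ ⟨w, ⟨hw, hwk⟩, rfl⟩
      refine subset_toMeasurable _ _ ⟨w, ⟨(hs i hi w hw).1, hwk⟩, ?_⟩
      rw [← (hs i hi w hw).2]
      rfl
    · intro j hj hji
      have : K j ∩ ci n ⁻¹' {k} = ∅ := by
        refine eq_empty_of_forall_notMem fun w hw => ?_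
        have h1 := hsep j hj i hi hji w hw.1 z hz
        have h2 : dist w z ≤ 2 / 2 ^ n := dist_of_ci ((hw.2 : ci n w = k).trans (hzk : ci n z = k).symm)
        linarith
      rw [this, image_empty, measure_empty]
  · push Not at hex
    refine (Finset.sum_eq_zero fun i hi => ?_).trans_le (by simp)
    rw [hex i hi, image_empty, measure_empty]

/-! ### one structure -/

/-- a connected set which meets a closed set and its complement meets the frontier -/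
lemma inter_frontier_nonempty {C P : Set ℂ} (hC : IsPreconnected C) (hP : IsClosed P)
    (h1 : (C ∩ P).Nonempty) (h2 : ∃ p ∈ C, p ∉ P) : (C ∩ frontier P).Nonempty := by
  by_contra hne
  rw [not_nonempty_iff_eq_empty] at hne
  obtain ⟨z, hzC, hzP⟩ := h1
  obtain ⟨p, hpC, hpP⟩ := h2
  have hsub : C ⊆ interior P ∪ Pᶜ := by
    intro w hw
    by_cases hwP : w ∈ P
    · left
      by_contra hwi
      have : w ∈ C ∩ frontier P := ⟨hw, by rw [frontier, hP.closure_eq]; exact ⟨hwP, hwi⟩⟩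
      rw [hne] at this
      exact this
    · exact Or.inr hwP
  have hzi : z ∈ interior P := by
    rcases hsub hzC with h | h
    · exact h
    · exact (h hzP).elim
  obtain ⟨w, _, hw1, hw2⟩ := hC _ _ isOpen_interior hP.isOpen_compl hsub ⟨z, hzC, hzi⟩
    ⟨p, hpC, hpP⟩
  exact hw2 (interior_subset hw1)

/-- one structure -/
structure One (K D : Set ℂ) (u : ℂ → ℝ) (S : Set (Set ℂ)) (x : ℂ → ℝ) (al be lo hi : Set ℂ → ℝ) :
    Prop where
  fin : S.Finite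
  cpt : ∀ P ∈ S, IsCompact P
  disj : ∀ P ∈ S, ∀ Q ∈ S, P ≠ Q → Disjoint P Q
  cover : K ∩ D ⊆ ⋃₀ S
  fr : ∀ P ∈ S, Disjoint (frontier P) K
  cont : ContinuousOn x (⋃₀ S)ᶜ
  near : ∀ P ∈ S, ∀ η > 0, ∃ V, IsOpen V ∧ P ⊆ V ∧ ∀ z ∈ V, z ∉ ⋃₀ S → al P - η < x z ∧ x z < be P + η
  le : ∀ P ∈ S, al P ≤ be P
  lohi : ∀ P ∈ S, ∀ z ∈ frontier P, lo P ≤ u z ∧ u z ≤ hi P

variable {K D : Set ℂ} {u x : ℂ → ℝ} {S : Set (Set ℂ)} {al be lo hi : Set ℂ → ℝ}

lemma One.closed (h : One K D u S x al be lo hi) : IsClosed (⋃₀ S) := by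
  rw [sUnion_eq_biUnion]
  exact h.fin.isClosed_biUnion fun P hP => (h.cpt P hP).isClosed

/-- intermediate values along a connected set -/
lemma One.icc_subset (h : One K D u S x al be lo hi) {C : Set ℂ} (hC : IsPreconnected C) {p q : ℂ}
    (hp : p ∈ C) (hpS : p ∉ ⋃₀ S) (hq : q ∈ C) (hqS : q ∉ ⋃₀ S) :
    Icc (x p) (x q) ⊆ x '' (C \ ⋃₀ S) ∪ ⋃ P ∈ {P ∈ S | (C ∩ P).Nonempty}, Icc (al P) (be P) := by
  intro t ht
  by_contra hn
  rw [mem_union, not_or] at hn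
  obtain ⟨hn1, hn2⟩ := hn
  have hx1 : ∀ z ∈ C, z ∉ ⋃₀ S → x z ≠ t := fun z hz hzS he => hn1 ⟨z, ⟨hz, hzS⟩, he⟩
  have hx2 : ∀ P ∈ S, (C ∩ P).Nonempty → be P < t ∨ t < al P := by
    intro P hP hPC
    by_contra hc
    push Not at hc
    exact hn2 (mem_iUnion₂.2 ⟨P, ⟨hP, hPC⟩, hc.2, hc.1⟩)
  have hV : ∀ P ∈ S, ∃ V, IsOpen V ∧ P ⊆ V ∧ (∀ Q ∈ S, Q ≠ P → Disjoint V Q) ∧
      (be P < t → ∀ z ∈ V, z ∉ ⋃₀ S → x z < t) ∧ (t < al P → ∀ z ∈ V, z ∉ ⋃₀ S → t < x z) := by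
    intro P hP
    obtain ⟨V1, hV1, hPV1, hb1⟩ : ∃ V, IsOpen V ∧ P ⊆ V ∧ (be P < t → ∀ z ∈ V, z ∉ ⋃₀ S → x z < t) := by
      by_cases hb : be P < t
      · obtain ⟨V, h1, h2, h3⟩ := h.near P hP (t - be P) (by linarith)
        exact ⟨V, h1, h2, fun _ z hz hzS => by have := (h3 z hz hzS).2; linarith⟩
      · exact ⟨univ, isOpen_univ, subset_univ _, fun h => (hb h).elim⟩
    obtain ⟨V2, hV2, hPV2, hb2⟩ : ∃ V, IsOpen V ∧ P ⊆ V ∧ (t < al P → ∀ z ∈ V, z ∉ ⋃₀ S → t < x z) := by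
      by_cases hb : t < al P
      · obtain ⟨V, h1, h2, h3⟩ := h.near P hP (al P - t) (by linarith)
        exact ⟨V, h1, h2, fun _ z hz hzS => by have := (h3 z hz hzS).1; linarith⟩
      · exact ⟨univ, isOpen_univ, subset_univ _, fun h => (hb h).elim⟩
    have hcl : IsClosed (⋃ Q ∈ {Q ∈ S | Q ≠ P}, Q) :=
      (h.fin.subset (sep_subset _ _)).isClosed_biUnion fun Q hQ => (h.cpt Q hQ.1).isClosed
    refine ⟨V1 ∩ V2 ∩ (⋃ Q ∈ {Q ∈ S | Q ≠ P}, Q)ᶜ, (hV1.inter hV2).inter hcl.isOpen_compl,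
      subset_inter (subset_inter hPV1 hPV2) ?_, ?_, ?_, ?_⟩
    · intro z hz hz'
      obtain ⟨Q, hQ, hzQ⟩ := mem_iUnion₂.1 hz'
      exact disjoint_left.1 (h.disj P hP Q hQ.1 hQ.2.symm) hz hzQ
    · intro Q hQ hQP
      refine disjoint_left.2 fun z hz hzQ => hz.2 (mem_iUnion₂.2 ⟨Q, ⟨hQ, hQP⟩, hzQ⟩)
    · exact fun hb z hz hzS => hb1 hb z hz.1.1 hzS
    · exact fun hb z hz hzS => hb2 hb z hz.1.2 hzS
  choose! V hVo hPV hVd hVl hVu using hV
  have hop : IsOpen ((⋃₀ S)ᶜ) := h.closed.isOpen_compl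
  set A : Set ℂ := ((⋃₀ S)ᶜ ∩ x ⁻¹' Iio t) ∪ ⋃ P ∈ {P ∈ S | be P < t}, V P with hA
  set B : Set ℂ := ((⋃₀ S)ᶜ ∩ x ⁻¹' Ioi t) ∪ ⋃ P ∈ {P ∈ S | t < al P}, V P with hB
  have hAo : IsOpen A := (h.cont.isOpen_inter_preimage hop isOpen_Iio).union
    (isOpen_biUnion fun P hP => hVo P hP.1)
  have hBo : IsOpen B := (h.cont.isOpen_inter_preimage hop isOpen_Ioi).union
    (isOpen_biUnion fun P hP => hVo P hP.1)
  have hcov : C ⊆ A ∪ B := by
    intro z hz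
    by_cases hzS : z ∈ ⋃₀ S
    · obtain ⟨P, hP, hzP⟩ := hzS
      rcases hx2 P hP ⟨z, hz, hzP⟩ with hb | hb
      · exact Or.inl (Or.inr (mem_iUnion₂.2 ⟨P, ⟨hP, hb⟩, hPV P hP hzP⟩))
      · exact Or.inr (Or.inr (mem_iUnion₂.2 ⟨P, ⟨hP, hb⟩, hPV P hP hzP⟩))
    · rcases lt_or_gt_of_ne (hx1 z hz hzS) with hb | hb
      · exact Or.inl (Or.inl ⟨hzS, hb⟩)
      · exact Or.inr (Or.inl ⟨hzS, hb⟩)
  have hlA : ∀ z ∈ A, z ∉ ⋃₀ S → x z < t := by
    rintro z (hz | hz) hzS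
    · exact hz.2
    · obtain ⟨P, hP, hzP⟩ := mem_iUnion₂.1 hz
      exact hVl P hP.1 hP.2 z hzP hzS
  have hlB : ∀ z ∈ B, z ∉ ⋃₀ S → t < x z := by
    rintro z (hz | hz) hzS
    · exact hz.2
    · obtain ⟨P, hP, hzP⟩ := mem_iUnion₂.1 hz
      exact hVu P hP.1 hP.2 z hzP hzS
  have hpt : x p < t := lt_of_le_of_ne ht.1 (hx1 p hp hpS)
  have hqt : t < x q := lt_of_le_of_ne ht.2 (hx1 q hq hqS).symm
  obtain ⟨z, hz, hzA, hzB⟩ := hC A B hAo hBo hcov ⟨p, hp, Or.inl ⟨hpS, hpt⟩⟩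
    ⟨q, hq, Or.inl ⟨hqS, hqt⟩⟩
  by_cases hzS : z ∈ ⋃₀ S
  · obtain ⟨P, hP, hzP⟩ := hzS
    have h1 : be P < t := by
      rcases hzA with hzA | hzA
      · exact (hzA.1 ⟨P, hP, hzP⟩).elim
      · obtain ⟨Q, hQ, hzQ⟩ := mem_iUnion₂.1 hzA
        by_cases hQP : P = Q
        · exact hQP ▸ hQ.2
        · exact (disjoint_left.1 (hVd Q hQ.1 P hP hQP) hzQ hzP).elim
    have h2 : t < al P := by
      rcases hzB with hzB | hzB
      · exact (hzB.1 ⟨P, hP, hzP⟩).elim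
      · obtain ⟨Q, hQ, hzQ⟩ := mem_iUnion₂.1 hzB
        by_cases hQP : P = Q
        · exact hQP ▸ hQ.2
        · exact (disjoint_left.1 (hVd Q hQ.1 P hP hQP) hzQ hzP).elim
    have := h.le P hP
    linarith
  · have h1 := hlA z hzA hzS
    have h2 := hlB z hzB hzS
    linarith

open scoped Classical in
/-- the oscillation along a connected set -/
theorem One.osc (h : One K D u S x al be lo hi) {C : Set ℂ} (hC : IsPreconnected C) {p q : ℂ}
    (hp : p ∈ C) (hpS : p ∉ ⋃₀ S) (hq : q ∈ C) (hqS : q ∉ ⋃₀ S) :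
    ENNReal.ofReal |x p - x q| ≤ volume (x '' (C \ ⋃₀ S)) +
      ∑ P ∈ h.fin.toFinset.filter (fun P => (C ∩ P).Nonempty), ENNReal.ofReal (be P - al P) := by
  wlog hle : x p ≤ x q generalizing p q
  · rw [abs_sub_comm]
    exact this hq hqS hp hpS (le_of_not_ge hle)
  rw [abs_sub_comm, abs_of_nonneg (by linarith), ← Real.volume_Icc]
  refine (measure_mono (h.icc_subset hC hp hpS hq hqS)).trans ((measure_union_le _ _).trans ?_)
  gcongr
  have he : (⋃ P ∈ {P ∈ S | (C ∩ P).Nonempty}, Icc (al P) (be P)) =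
      ⋃ P ∈ h.fin.toFinset.filter (fun P => (C ∩ P).Nonempty), Icc (al P) (be P) := by
    ext t
    simp
  rw [he]
  refine (measure_biUnion_finset_le _ _).trans (Finset.sum_le_sum fun P _ => ?_)
  rw [Real.volume_Icc]

open scoped Classical in
/-- the counting function of a structure -/
noncomputable def ee (D : Set ℂ) (u : ℂ → ℝ) {S : Set (Set ℂ)} (hf : S.Finite) (x : ℂ → ℝ)
    (al be lo hi : Set ℂ → ℝ) (s : ℝ) : ℝ≥0∞ :=
  gg u x (D \ ⋃₀ S) s + ∑ P ∈ hf.toFinset.filter (fun P => (D ∩ P).Nonempty),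
    (Icc (lo P) (hi P)).indicator (fun _ => ENNReal.ofReal (be P - al P)) s

lemma measurable_ee (D : Set ℂ) (u : ℂ → ℝ) {S : Set (Set ℂ)} (hf : S.Finite) (x : ℂ → ℝ)
    (al be lo hi : Set ℂ → ℝ) : Measurable (ee D u hf x al be lo hi) :=
  (measurable_gg _ _ _).add (Finset.measurable_sum _ fun _ _ =>
    measurable_const.indicator measurableSet_Icc)

open scoped Classical in
/-- the integral of the counting function -/
theorem lintegral_ee (h : One K D u S x al be lo hi) (hDm : MeasurableSet D) {w : ℂ → ℝ≥0∞}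
    (hw : Dom u x w (D \ ⋃₀ S)) :
    ∫⁻ s, ee D u h.fin x al be lo hi s ≤ (∫⁻ z in D \ ⋃₀ S, w z) +
      ∑ P ∈ h.fin.toFinset.filter (fun P => (D ∩ P).Nonempty),
        ENNReal.ofReal (be P - al P) * ENNReal.ofReal (hi P - lo P) := by
  unfold ee
  rw [lintegral_add_left (measurable_gg _ _ _), lintegral_finsetSum _ fun _ _ =>
    measurable_const.indicator measurableSet_Icc]
  gcongr with P hP
  · exact lintegral_gg (hDm.diff h.closed.measurableSet) hw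
  · rw [lintegral_indicator measurableSet_Icc, setLIntegral_const, Real.volume_Icc]

open scoped Classical in
/-- several disjoint continua in one level set, one structure -/
theorem One.family (h : One K D u S x al be lo hi) {s : ℝ} {κ : Type*} (J : Finset κ)
    (C : κ → Set ℂ) (hCc : ∀ j ∈ J, IsCompact (C j)) (hCp : ∀ j ∈ J, IsPreconnected (C j))
    (hCD : ∀ j ∈ J, C j ⊆ D) (hd : ∀ i ∈ J, ∀ j ∈ J, i ≠ j → Disjoint (C i) (C j))
    (hu : ∀ j ∈ J, ∀ z ∈ C j, z ∉ K → u z = s) (p q : κ → ℂ)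
    (hp : ∀ j ∈ J, p j ∈ C j ∧ p j ∉ ⋃₀ S) (hq : ∀ j ∈ J, q j ∈ C j ∧ q j ∉ ⋃₀ S)
    (hone : ∀ P ∈ S, ∀ i ∈ J, ∀ j ∈ J, (C i ∩ P).Nonempty → (C j ∩ P).Nonempty → i = j) :
    ∑ j ∈ J, ENNReal.ofReal |x (p j) - x (q j)| ≤ ee D u h.fin x al be lo hi s := by
  have h1 : ∀ j ∈ J, ENNReal.ofReal |x (p j) - x (q j)| ≤ volume (x '' (C j \ ⋃₀ S)) +
      ∑ P ∈ h.fin.toFinset.filter (fun P => (C j ∩ P).Nonempty), ENNReal.ofReal (be P - al P) :=
    fun j hj => h.osc (hCp j hj) (hp j hj).1 (hp j hj).2 (hq j hj).1 (hq j hj).2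
  refine (Finset.sum_le_sum h1).trans ?_
  rw [Finset.sum_add_distrib]
  unfold ee
  gcongr ?_ + ?_
  · refine sum_le_gg' J C (fun j => C j \ ⋃₀ S) hCc hd (fun j _ => sdiff_subset) ?_
    intro j hj z hz
    refine ⟨⟨hCD j hj hz.1, hz.2⟩, hu j hj z hz.1 fun hzK => hz.2 ?_⟩
    exact h.cover ⟨hzK, hCD j hj hz.1⟩
  · have h2 : ∀ j ∈ J, ∑ P ∈ h.fin.toFinset.filter (fun P => (C j ∩ P).Nonempty),
        ENNReal.ofReal (be P - al P) = ∑ P ∈ h.fin.toFinset.filter (fun P => (D ∩ P).Nonempty),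
          if (C j ∩ P).Nonempty then ENNReal.ofReal (be P - al P) else 0 := by
      intro j hj
      rw [← Finset.sum_filter]
      congr 1
      ext P
      simp only [Finset.mem_filter, Finite.mem_toFinset]
      constructor
      · rintro ⟨h1, z, hz⟩
        exact ⟨⟨h1, z, hCD j hj hz.1, hz.2⟩, z, hz⟩
      · rintro ⟨⟨h1, _⟩, h2⟩
        exact ⟨h1, h2⟩
    rw [Finset.sum_congr rfl h2, Finset.sum_comm]
    refine Finset.sum_le_sum fun P hP => ?_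
    rw [Finset.mem_filter, Finite.mem_toFinset] at hP
    by_cases hex : ∃ j ∈ J, (C j ∩ P).Nonempty
    · obtain ⟨j, hj, hjP⟩ := hex
      rw [Finset.sum_eq_single_of_mem j hj, if_pos hjP]
      · obtain ⟨z, hzC, hzf⟩ := inter_frontier_nonempty (hCp j hj) (h.cpt P hP.1).isClosed hjP
          ⟨p j, (hp j hj).1, fun hpP => (hp j hj).2 ⟨P, hP.1, hpP⟩⟩
        have hzK : z ∉ K := fun hzK => disjoint_left.1 (h.fr P hP.1) hzf hzK
        have hl := h.lohi P hP.1 z hzf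
        rw [hu j hj z hzC hzK] at hl
        rw [indicator_of_mem (show s ∈ Icc (lo P) (hi P) from hl)]
      · intro i hi hij
        rw [if_neg fun hiP => hij (hone P hP.1 i hi j hj hiP hjP)]
    · push Not at hex
      refine (Finset.sum_eq_zero fun j hj => ?_).trans_le (by simp)
      rw [if_neg]
      rw [hex j hj]
      exact not_nonempty_empty

end Vale.Agent.P116.Cl.H967
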