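import Vale.Agent.P116.Cl.H967.Area

/-!
# Functions with a continuous upper gradient
-/

open Set Filter Topology Metric MeasureTheory Measure
open scoped ENNReal NNReal

namespace Vale.Agent.P116.Cl.H967

/-- `ρ` is a continuous upper gradient of `u` on `G` -/
structure UG (G : Set ℂ) (u ρ : ℂ → ℝ) : Prop where
  cont : ContinuousOn ρ G
  nonneg : ∀ z ∈ G, 0 ≤ ρ z
  le : ∀ x y, segment ℝ x y ⊆ G → ∀ M, (∀ z ∈ segment ℝ x y, ρ z ≤ M) → |u x - u y| ≤ M * ‖x - y‖

lemma vol_null_lip {f : ℂ → ℂ} {s : Set ℂ} {C : ℝ≥0} (h : LipschitzOnWith C f s)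
    (hs : volume s = 0) : volume (f '' s) = 0 := by
  have h1 : (volume : Measure ℂ) ≪ μH[Module.finrank ℝ ℂ] :=
    absolutelyContinuous_isAddHaarMeasure _ _
  have h2 : (μH[Module.finrank ℝ ℂ] : Measure ℂ) ≪ volume :=
    absolutelyContinuous_isAddHaarMeasure _ _
  refine h1 ?_
  have h3 := h.hausdorffMeasure_image_le (d := Module.finrank ℝ ℂ) (by positivity)
  rw [h2 hs, mul_zero] at h3
  exact le_antisymm h3 (by simp)

lemma UG.lip {G : Set ℂ} {u ρ : ℂ → ℝ} (h : UG G u ρ) {z : ℂ} {r : ℝ}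
    (hG : closedBall z r ⊆ G) : ∃ C : ℝ≥0, LipschitzOnWith C u (closedBall z r) := by
  obtain ⟨M, hM⟩ := ((isCompact_closedBall z r).bddAbove_image (h.cont.mono hG))
  refine ⟨(max M 0).toNNReal, LipschitzOnWith.of_dist_le_mul fun x hx y hy => ?_⟩
  rw [Real.coe_toNNReal _ (le_max_right _ _), Real.dist_eq, dist_eq_norm]
  have hseg : segment ℝ x y ⊆ closedBall z r := (convex_closedBall z r).segment_subset hx hy
  exact h.le x y (hseg.trans hG) _ fun w hw => (hM (mem_image_of_mem _ (hseg hw))).trans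
    (le_max_left _ _)

lemma UG.norm_fderiv_le {G : Set ℂ} {u ρ : ℂ → ℝ} (hG : IsOpen G) (h : UG G u ρ) {z : ℂ}
    (hz : z ∈ G) : ‖fderiv ℝ u z‖ ≤ ρ z := by
  refine le_of_forall_pos_le_add fun ε hε => ?_
  obtain ⟨δ, hδ, hb⟩ := Metric.isOpen_iff.1 hG z hz
  have hc : ∀ᶠ w in 𝓝 z, ρ w < ρ z + ε :=
    (h.cont.continuousAt (hG.mem_nhds hz)).eventually (gt_mem_nhds (by linarith))
  obtain ⟨δ', hδ', hb'⟩ := Metric.eventually_nhds_iff_ball.1 hc
  refine norm_fderiv_le_of_lip' ℝ (by have := h.nonneg z hz; linarith) ?_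
  filter_upwards [Metric.ball_mem_nhds z (lt_min hδ hδ')] with w hw
  have hseg : segment ℝ w z ⊆ ball z (min δ δ') :=
    (convex_ball z _).segment_subset hw (mem_ball_self (lt_min hδ hδ'))
  exact h.le w z (hseg.trans ((ball_subset_ball (min_le_left _ _)).trans hb)) _ fun y hy =>
    (hb' y (ball_subset_ball (min_le_right _ _) (hseg hy))).le

lemma Dom.of_ug_ball {G : Set ℂ} {u x ρ σ : ℂ → ℝ} (hG : IsOpen G) (hu : UG G u ρ) (hx : UG G x σ)
    {z : ℂ} {r : ℝ} (hb : closedBall z r ⊆ G) :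
    Dom u x (fun z => ENNReal.ofReal (ρ z * σ z)) (ball z r) := by
  intro B hB hBm
  obtain ⟨C, hC⟩ := hu.lip hb
  obtain ⟨D, hD⟩ := hx.lip hb
  have hBc : B ⊆ closedBall z r := hB.trans ball_subset_closedBall
  have h1 : ∀ᵐ w, w ∈ ball z r → DifferentiableAt ℝ u w := by
    filter_upwards [(hC.mono ball_subset_closedBall).ae_differentiableWithinAt_of_mem
      (μ := volume)] with w hw hwb
    exact (hw hwb).differentiableAt (isOpen_ball.mem_nhds hwb)
  have h2 : ∀ᵐ w, w ∈ ball z r → DifferentiableAt ℝ x w := by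
    filter_upwards [(hD.mono ball_subset_closedBall).ae_differentiableWithinAt_of_mem
      (μ := volume)] with w hw hwb
    exact (hw hwb).differentiableAt (isOpen_ball.mem_nhds hwb)
  have h3 : volume {w | ¬ ((w ∈ ball z r → DifferentiableAt ℝ u w) ∧
      (w ∈ ball z r → DifferentiableAt ℝ x w))} = 0 := h1.and h2
  set N := toMeasurable volume {w | ¬ ((w ∈ ball z r → DifferentiableAt ℝ u w) ∧
      (w ∈ ball z r → DifferentiableAt ℝ x w))} with hN
  have hNm : MeasurableSet N := measurableSet_toMeasurable _ _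
  have hN0 : volume N = 0 := by rw [hN, measure_toMeasurable]; exact h3
  have hd : ∀ w ∈ B \ N, DifferentiableAt ℝ u w ∧ DifferentiableAt ℝ x w := by
    intro w hw
    by_contra hc
    refine hw.2 (subset_toMeasurable _ _ ?_)
    intro h
    exact hc ⟨h.1 (hB hw.1), h.2 (hB hw.1)⟩
  have hdom := Dom.of_deriv (u := u) (x := x) (u' := fderiv ℝ u) (x' := fderiv ℝ x) (A := B \ N)
    (fun w hw => (hd w hw).1.hasFDerivAt.hasFDerivWithinAt)
    (fun w hw => (hd w hw).2.hasFDerivAt.hasFDerivWithinAt) (B \ N) subset_rfl (hBm.diff hNm)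
  have hlip : LipschitzOnWith (C + D) (Ph u x) (B ∩ N) := by
    refine LipschitzOnWith.of_dist_le_mul fun a ha b hb => ?_
    have e1 := hC.dist_le_mul a (hBc ha.1) b (hBc hb.1)
    have e2 := hD.dist_le_mul a (hBc ha.1) b (hBc hb.1)
    rw [Real.dist_eq] at e1 e2
    rw [Complex.dist_eq]
    refine (Complex.norm_le_abs_re_add_abs_im _).trans ?_
    simp only [Complex.sub_re, Complex.sub_im, Ph_re, Ph_im, NNReal.coe_add]
    linarith
  have hnull : volume (Ph u x '' (B ∩ N)) = 0 :=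
    vol_null_lip hlip (le_antisymm ((measure_mono inter_subset_right).trans hN0.le) (by simp))
  calc volume (Ph u x '' B) = volume (Ph u x '' (B \ N) ∪ Ph u x '' (B ∩ N)) := by
        rw [← image_union, diff_union_inter]
    _ ≤ volume (Ph u x '' (B \ N)) + volume (Ph u x '' (B ∩ N)) := measure_union_le _ _
    _ = volume (Ph u x '' (B \ N)) := by rw [hnull, add_zero]
    _ ≤ ∫⁻ w in B \ N, ENNReal.ofReal (‖fderiv ℝ u w‖ * ‖fderiv ℝ x w‖) := hdom
    _ ≤ ∫⁻ w in B \ N, ENNReal.ofReal (ρ w * σ w) := by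
        refine setLIntegral_mono' (hBm.diff hNm) fun w hw => ENNReal.ofReal_le_ofReal ?_
        have hwG : w ∈ G := hb (hBc hw.1)
        exact mul_le_mul (hu.norm_fderiv_le hG hwG) (hx.norm_fderiv_le hG hwG) (norm_nonneg _)
          (hu.nonneg w hwG)
    _ ≤ ∫⁻ w in B, ENNReal.ofReal (ρ w * σ w) := lintegral_mono_set diff_subset

theorem Dom.of_ug {G : Set ℂ} {u x ρ σ : ℂ → ℝ} (hG : IsOpen G) (hu : UG G u ρ) (hx : UG G x σ) :
    Dom u x (fun z => ENNReal.ofReal (ρ z * σ z)) G := by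
  have h1 : ∀ z : G, ∃ r > 0, closedBall (z : ℂ) r ⊆ G := fun z => by
    obtain ⟨r, hr, h⟩ := Metric.isOpen_iff.1 hG z z.2
    exact ⟨r / 2, by positivity, (closedBall_subset_ball (by linarith)).trans h⟩
  choose r hr hrG using h1
  obtain ⟨T, hT, hTG⟩ := TopologicalSpace.isOpen_iUnion_countable (fun z : G => ball (z : ℂ) (r z))
    fun _ => isOpen_ball
  have hcov : G ⊆ ⋃ z ∈ T, ball (z : ℂ) (r z) := by
    rw [hTG]
    exact fun z hz => mem_iUnion.2 ⟨⟨z, hz⟩, mem_ball_self (hr _)⟩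
  haveI : Countable T := hT.to_subtype
  have h2 : Dom u x (fun z => ENNReal.ofReal (ρ z * σ z)) (⋃ z : T, ball ((z : G) : ℂ) (r z)) :=
    Dom.iUnion (fun z => Dom.of_ug_ball hG hu hx (hrG z)) fun _ => measurableSet_ball
  refine h2.mono (hcov.trans ?_)
  rw [biUnion_eq_iUnion]

/-- a Lipschitz function of an analytic function -/
lemma UG.of_comp {G : Set ℂ} (hG : IsOpen G) {F : ℂ → ℂ} (hF : DifferentiableOn ℂ F G) {h : ℂ → ℝ}
    {L : ℝ≥0} (hh : LipschitzWith L h) : UG G (fun z => h (F z)) (fun z => L * ‖deriv F z‖) where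
  cont := continuousOn_const.mul (hF.deriv hG).continuousOn.norm
  nonneg z _ := by positivity
  le x y hs M hM := by
    rcases eq_or_ne x y with rfl | hxy
    · simp
    have hM0 : 0 ≤ M := (by positivity : (0:ℝ) ≤ L * ‖deriv F x‖).trans (hM x (left_mem_segment ℝ x y))
    have h1 : |h (F x) - h (F y)| ≤ L * ‖F x - F y‖ := by
      rw [← Real.dist_eq, ← dist_eq_norm]; exact hh.dist_le_mul _ _
    rcases eq_or_ne L 0 with rfl | hL
    · refine h1.trans ?_
      simp only [NNReal.coe_zero, zero_mul]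
      positivity
    have hL' : (0:ℝ) < L := by positivity
    have h2 : ‖F x - F y‖ ≤ (M / L) * ‖x - y‖ := by
      rw [norm_sub_rev, norm_sub_rev x y]
      refine (convex_segment x y).norm_image_sub_le_of_norm_hasDerivWithin_le (f' := deriv F)
        (fun w hw => ((hF w (hs hw)).differentiableAt (hG.mem_nhds (hs hw))).hasDerivAt.hasDerivWithinAt)
        (fun w hw => ?_) (left_mem_segment ℝ x y) (right_mem_segment ℝ x y)
      rw [le_div_iff₀ hL', mul_comm]
      exact hM w hw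
    calc |h (F x) - h (F y)| ≤ L * ‖F x - F y‖ := h1
      _ ≤ L * ((M / L) * ‖x - y‖) := by gcongr
      _ = M * ‖x - y‖ := by field_simp

end Vale.Agent.P116.Cl.H967
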